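import Vale.Agent.P275HE.Defs
import Vale.Agent.P275HE.Alg
import Vale.Agent.P275RL.Mat
import Vale.Agent.P275MB.Gau

/-!
# P275: the elementary transformation at the pole matches the canonical flat frames
-/

set_option linter.all false

open scoped Topology Matrix.Norms.Operator
open Set Filter Metric Matrix

noncomputable section

namespace Vale.Agent.P275OF

open Vale.Agent.P275GC Vale.Agent.P275MO Vale.Agent.P275HE
open Vale.Agent.P275NA (Fm Cy Mn)
open Vale.Agent.P275RL (Hz Gau gau_ex hz_ext ex_semi ex_add ex_mul_neg ex_neg_mul NRt Ann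
  ann_charpoly)

section alg

variable {𝔸 : Type} [NormedRing 𝔸] [NormedAlgebra ℂ 𝔸] [CompleteSpace 𝔸]

theorem ex_scal (s L : ℂ) : P275RL.ex (s • (1 : 𝔸)) L = Complex.exp (L * s) • 1 := by
  rw [P275RL.ex, smul_smul, ← Algebra.algebraMap_eq_smul_one, ← NormedSpace.algebraMap_exp_comm,
    ← Complex.exp_eq_exp_ℂ, Algebra.algebraMap_eq_smul_one]

theorem ex_eig {M p : 𝔸} {s : ℂ} (h : M * p = s • p) (L : ℂ) :
    P275RL.ex M L * p = Complex.exp (L * s) • p := by
  rw [ex_semi (S := s • (1 : 𝔸)) (by rw [h, mul_smul_comm, mul_one]), ex_scal, mul_smul_comm,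
    mul_one]

theorem ex_sum {R S : 𝔸} (h : R * S = S * R) (L : ℂ) :
    P275RL.ex (R + S) L = P275RL.ex R L * P275RL.ex S L := by
  letI : NormedAlgebra ℚ 𝔸 := NormedAlgebra.restrictScalars ℚ ℂ 𝔸
  rw [P275RL.ex, smul_add]
  exact NormedSpace.exp_add_of_commute (((show Commute R S from h).smul_left L).smul_right L)

/-- `w ^ (m p + (1 - p))` -/
def NN (m : ℤ) (p : 𝔸) (w : ℂ) : 𝔸 := w ^ m • p + w • (1 - p)

theorem ex_NN {p : 𝔸} (hp : p * p = p) (m : ℤ) (L : ℂ) :
    P275RL.ex ((m : ℂ) • p + (1 - p)) L = NN m p (Complex.exp L) := by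
  have a := ex_eig (M := (m : ℂ) • p + (1 - p)) (p := p) (s := m)
    (by rw [add_mul, smul_mul_assoc, sub_mul, hp, one_mul, sub_self, add_zero]) L
  have b := ex_eig (M := (m : ℂ) • p + (1 - p)) (p := 1 - p) (s := 1)
    (by simp only [add_mul, smul_mul_assoc, sub_mul, mul_sub, hp, one_mul, mul_one, one_smul]
        simp) L
  rw [mul_comm L, Complex.exp_int_mul] at a
  rw [mul_one] at b
  rw [NN, ← a, ← b, ← mul_add, add_sub_cancel, mul_one]

omit [CompleteSpace 𝔸] in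
theorem der_NN {p : 𝔸} (hp : p * p = p) (m : ℤ) {c w : ℂ} (hw : w ≠ c) : ∃ D,
    HasDerivAt (fun y => NN m p (y - c)) D w ∧
      (w - c) • D = NN m p (w - c) * ((m : ℂ) • p + (1 - p)) := by
  have h0 := sub_ne_zero.2 hw
  have a : HasDerivAt (fun y : ℂ => y - c) 1 w := (hasDerivAt_id w).sub_const c
  refine ⟨_, (((hasDerivAt_zpow m (w - c) (Or.inl h0)).comp w a).smul_const p).add
    (a.smul_const (1 - p)), ?_⟩
  have e : (w - c) * (m * (w - c) ^ (m - 1) * 1) = (w - c) ^ m * m := by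
    rw [zpow_sub_one₀ h0]; field_simp
  rw [smul_add, smul_smul, e, one_smul]
  simp only [NN, add_mul, mul_add, smul_mul_assoc, mul_smul_comm, sub_mul, mul_sub, hp, one_mul,
    mul_one, sub_self, smul_zero, add_zero, sub_zero, smul_smul, zero_add, mul_comm]
  module

omit [CompleteSpace 𝔸] in
theorem gau_one (c : ℂ) (r : ℝ) (R : 𝔸) : Gau c r (fun _ => R) (fun _ => 1) fun _ => 1 :=
  ⟨Hz.const fun _ _ => by simp, Hz.const fun _ _ => by simp, rfl, rfl, fun _ _ => one_mul _,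
    fun _ _ => one_mul _⟩

/-- the transformation in the canonical frames -/
theorem loc [FiniteDimensional ℂ 𝔸] {c : ℂ} {r : ℝ} (hr : 0 < r) {b b' G H u : ℂ → 𝔸} {R p : 𝔸}
    {m : ℤ} (hp : p * p = p) (hR : R * p = p * R) (hN : P275RL.NR R R)
    (hG : Hz c r b (fun _ => R) G) (hH : Hz c r (fun _ => R + ((m : ℂ) • p + (1 - p))) b' H)
    (hu : ∀ w ∈ ball c r, w ≠ c → DifferentiableAt ℂ u w ∧
      (w - c) • deriv u w + b' w * u w = u w * b w) :
    ∃ X, R * X = X * R ∧ ∀ w ∈ ball c r, w ≠ c → NN m p (w - c) * (H w * u w * G w) = X := by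
  obtain ⟨X, a, -, e⟩ := hz_ext hr (gau_one c r R) (gau_one c r R) hN
    (f := fun w => NN m p (w - c) * (H w * u w * G w)) fun w hw h0 => by
      obtain ⟨D, d, eD⟩ := der_NN hp m h0
      have hb := isOpen_ball.mem_nhds hw
      have d1 := d.mul (((hH.hol.differentiableAt hb).hasDerivAt.mul
        (hu w hw h0).1.hasDerivAt).mul (hG.hol.differentiableAt hb).hasDerivAt)
      refine ⟨d1.differentiableAt, ?_⟩
      have cN : R * NN m p (w - c) = NN m p (w - c) * R := by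
        simp only [NN, mul_add, add_mul, mul_smul_comm, smul_mul_assoc, mul_sub, sub_mul, hR,
          mul_one, one_mul]
      have e1 := eq_sub_of_add_eq (hG.eq w hw)
      have e2 := eq_sub_of_add_eq (hH.eq w hw)
      have e3 := eq_sub_of_add_eq (hu w hw h0).2
      have e4 : (w - c) • (D * (H w * u w * G w) + NN m p (w - c) *
          ((deriv H w * u w + H w * deriv u w) * G w + H w * u w * deriv G w)) =
          ((w - c) • D) * (H w * u w * G w) + NN m p (w - c) *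
          ((((w - c) • deriv H w) * u w + H w * ((w - c) • deriv u w)) * G w +
            H w * u w * ((w - c) • deriv G w)) := by
        simp only [smul_add, mul_add, add_mul, smul_mul_assoc, mul_smul_comm]
      refine (congrArg (fun Y => (w - c) • Y + _) d1.deriv).trans ?_
      simp only [Pi.mul_apply]
      rw [e4, eD, e1, e2, e3, ← mul_assoc R, cN]
      noncomm_ring
  exact ⟨X, a, fun w hw h0 => by simpa using e w hw h0⟩

end alg

variable {n : ℕ} {o : Fin n}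

theorem pe_pe : pe o * pe o = pe o := by simp [pe]

theorem pe_mul_pe (X : Mn n) : pe o * X * pe o = X o o • pe o := by
  simp [pe]

theorem mu_eq : mu o = (((1 - n : ℤ)) : ℂ) • pe o + (1 - pe o) := by
  rw [mu]; push_cast; module

variable {τ : Ty n} {j : Fin τ.m} {κ : ℝ} {R : Mn n}

theorem ann (h : HTy τ o j κ) (hq : R ∈ τ.q) :
    Ann (fun a => if a = o then R o o else κ * τ.η R j) R := by
  refine ann_charpoly ?_
  rw [h.chp R hq, ← Finset.mul_prod_erase _ _ (Finset.mem_univ o), if_pos rfl,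
    Finset.prod_congr rfl fun a ha => by rw [if_neg (Finset.ne_of_mem_erase ha)]]
  simp

theorem gap (h : HTy τ o j κ) (hi : (τ.η R j).im ≠ 0) : ((n : ℂ) * (κ * τ.η R j)).im ≠ 0 := by
  have : (n : ℝ) ≠ 0 := by exact_mod_cast (Fin.pos o).ne'
  simp [this, h.ne, hi]

theorem nrt (h : HTy τ o j κ) (hq : R ∈ τ.q) (hi : (τ.η R j).im ≠ 0) :
    NRt (fun a => if a = o then R o o else κ * τ.η R j)
      fun a => if a = o then R o o else κ * τ.η R j := fun a b k hk e => by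
  have g := gap h hi
  have k0 : (k : ℂ) ≠ 0 := by exact_mod_cast hk
  rw [h.eta R hq] at e
  generalize (κ * τ.η R j : ℂ) = y at *
  dsimp only at e
  split_ifs at e
  · exact k0 (by rw [← e, sub_self])
  · exact g (by rw [show (n : ℂ) * y = -k by linear_combination -e]; simp)
  · exact g (by rw [show (n : ℂ) * y = k by linear_combination e]; simp)
  · exact k0 (by rw [← e, sub_self])

theorem nr (h : HTy τ o j κ) (hq : R ∈ τ.q) (hi : (τ.η R j).im ≠ 0) {σ : Mn n} (d : σ.det ≠ 0) :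
    P275RL.NR (σ * R * σ⁻¹) (σ * R * σ⁻¹) :=
  (nrt h hq hi).nr ((ann h hq).conj d) ((ann h hq).conj d)

theorem im_mu (h : HTy τ o j κ) : (τ.η (mu o) j).im = 0 := by
  have e := h.eta _ h.mem
  rw [show mu o o o = 1 - n by simp [mu, pe]] at e
  by_cases h1 : (1 - n : ℂ) = 0
  · have : n = 1 := by exact_mod_cast (sub_eq_zero.1 h1).symm
    subst this
    rw [show mu o = 0 by ext a b; simp [mu, pe, Subsingleton.elim a o, Subsingleton.elim b o]]
    simp
  · have := congrArg Complex.im (mul_left_cancel₀ h1 ((mul_one _).trans e))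
    simpa [h.ne] using this

theorem smp (h : HTy τ o j κ) (hq : R ∈ τ.q) (hi : (τ.η R j).im ≠ 0) : Smp R.charpoly (R o o) := by
  refine P275HE.NR.smp (lam := 0) ⟨_, h.chp R hq, fun k => ?_⟩
  have g := gap h hi
  rw [h.eta R hq]
  generalize (κ * τ.η R j : ℂ) = y at *
  simp only [mul_zero, sub_zero, Polynomial.eval_pow, Polynomial.eval_sub, Polynomial.eval_X,
    Polynomial.eval_C]
  exact pow_ne_zero _ fun e => g (by rw [show (n : ℂ) * y = 0 by linear_combination -e]; simp)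

theorem sp_pe (hs : Smp R.charpoly (R o o)) (hR : R * pe o = pe o * R) : sp R (R o o) = pe o := by
  have e : R * pe o = R o o • pe o := by rw [← pe_mul_pe, ← hR, mul_assoc, pe_pe]
  exact sp_unique hs e (hR ▸ e) (by simp [pe])

theorem shape {X : Mn n} {c : ℂ} (d : X.det ≠ 0) (h1 : pe o * X = X * pe o)
    (h2 : (1 - pe o) * X * (1 - pe o) = c • (1 - pe o)) :
    X o o ≠ 0 ∧ X = X o o • pe o + c • (1 - pe o) := by
  have a : X * pe o = X o o • pe o := by rw [← pe_mul_pe, h1, mul_assoc, pe_pe]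
  refine ⟨fun e => ?_, ?_⟩
  · rw [e, zero_smul] at a
    have := congrArg (fun Y => (X⁻¹ * Y) o o) a
    simp [nonsing_inv_mul_cancel_left _ _ d.isUnit, pe] at this
  · rw [← a, ← h2]
    simp only [sub_mul, mul_sub, one_mul, mul_one, h1, mul_assoc, pe_pe]
    abel

/-- the local statement -/
theorem loc2 {c k : ℂ} {r : ℝ} (hr : 0 < r) {b b' u : ℂ → Mn n} {σ σ' U : Mn n}
    (h : HTy τ o j κ) (hq : R ∈ τ.q) (hi : (τ.η R j).im ≠ 0) (hR : R * pe o = pe o * R)
    (d : σ.det ≠ 0) (d' : σ'.det ≠ 0) (hb : DifferentiableOn ℂ b (ball c r))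
    (hb' : DifferentiableOn ℂ b' (ball c r)) (e : b c = σ * R * σ⁻¹)
    (e' : b' c = σ' * (R + mu o) * σ'⁻¹)
    (hu : ∀ w ∈ ball c r, w ≠ c → (u w).det ≠ 0 ∧ DifferentiableAt ℂ u w ∧
      (w - c) • deriv u w + b' w * u w = u w * b w)
    (hU : Tendsto (fun w => (w - c) • u w) (𝓝[≠] c) (𝓝 U))
    (hk : U * σ * (1 - pe o) = k • (σ' * (1 - pe o))) :
    ∃ (a : ℂ) (G G' : ℂ → Mn n), a ≠ 0 ∧ Hz c r b (fun _ => R) G ∧
      Hz c r b' (fun _ => R + mu o) G' ∧ G c = σ ∧ G' c = σ' ∧ ∀ w ∈ ball c r, w ≠ c →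
      ∀ L, Complex.exp L = w - c → u w * G w * P275RL.ex R (-L) =
        G' w * P275RL.ex (R + mu o) (-L) * (a • pe o + k • (1 - pe o)) := by
  have hq' := τ.q.add_mem hq h.mem
  have hi' : (τ.η (R + mu o) j).im ≠ 0 := by
    rwa [map_add, Pi.add_apply, Complex.add_im, im_mu h, add_zero]
  obtain ⟨g, f, G⟩ := gau_ex hb (e ▸ nr h hq hi d)
  obtain ⟨g', f', G'⟩ := gau_ex hb' (e' ▸ nr h hq' hi' d')
  have a1 : Hz c r b (fun _ => R) fun w => g w * σ := G.hg.mul (Hz.const fun _ _ => by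
    rw [e, nonsing_inv_mul_cancel_right _ _ d.isUnit])
  have a2 : Hz c r b' (fun _ => R + mu o) fun w => g' w * σ' := G'.hg.mul (Hz.const fun _ _ => by
    rw [e', nonsing_inv_mul_cancel_right _ _ d'.isUnit])
  have a3 : Hz c r (fun _ => R + mu o) b' fun w => σ'⁻¹ * f' w :=
    (Hz.const (B := fun _ => b' c) fun _ _ => by
      rw [e', mul_assoc σ', nonsing_inv_mul_cancel_left _ _ d'.isUnit]).mul G'.hh
  obtain ⟨X, x1, x2⟩ := loc hr pe_pe hR (by simpa using nr h hq hi (σ := 1) (by simp)) a1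
    (mu_eq (o := o) ▸ a3) fun w hw h0 => (hu w hw h0).2
  have hs := smp h hq hi
  have x3 := sp_conj hs hs x1
  rw [sp_pe hs hR] at x3
  have ev : ∀ᶠ w in 𝓝[≠] c, w ∈ ball c r ∧ w ≠ c :=
    Eventually.and (mem_nhdsWithin_of_mem_nhds (ball_mem_nhds c hr)) self_mem_nhdsWithin
  have key : ∀ w ∈ ball c r, w ≠ c → ∀ L, Complex.exp L = w - c →
      u w * (g w * σ) = g' w * σ' * (P275RL.ex (mu o) (-L) * X) := fun w hw h0 L hL => by
    rw [← x2 w hw h0, ← hL, ← ex_NN pe_pe, ← mu_eq, ← mul_assoc (P275RL.ex _ _), ex_neg_mul, one_mul]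
    simp only [mul_assoc]
    rw [mul_nonsing_inv_cancel_left _ _ d'.isUnit, ← mul_assoc (g' w), G'.gh w hw, one_mul]
  have xd : X.det ≠ 0 := fun e0 => by
    obtain ⟨w, hw, h0⟩ := ev.exists
    have := congrArg det (key w hw h0 _ (Complex.exp_log (sub_ne_zero.2 h0)))
    simp only [Matrix.det_mul, e0, mul_zero] at this
    exact mul_ne_zero (hu w hw h0).1 (mul_ne_zero (G.det_ne hw) d) this
  have lim : Tendsto (fun w => (1 - pe o) * (σ'⁻¹ * f' w * ((w - c) • u w) * (g w * σ)))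
      (𝓝[≠] c) (𝓝 ((1 - pe o) * (σ'⁻¹ * f' c * U * (g c * σ)))) :=
    ((((a3.hol.continuousOn.continuousAt (ball_mem_nhds c hr)).tendsto.mono_left
      nhdsWithin_le_nhds).mul hU).mul ((a1.hol.continuousOn.continuousAt
        (ball_mem_nhds c hr)).tendsto.mono_left nhdsWithin_le_nhds)).const_mul _
  have x4 : (1 - pe o) * X = (1 - pe o) * (σ'⁻¹ * f' c * U * (g c * σ)) := by
    refine tendsto_nhds_unique (tendsto_const_nhds.congr' (ev.mono fun w a => ?_)) lim
    have : (1 - pe o) * NN (1 - n) (pe o) (w - c) = (w - c) • (1 - pe o) := by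
      simp only [NN, mul_add, mul_smul_comm, sub_mul, mul_sub, pe_pe, one_mul, mul_one]
      module
    rw [← x2 w a.1 a.2, ← mul_assoc, this]
    simp only [smul_mul_assoc, mul_smul_comm]
  obtain ⟨s1, s2⟩ := shape (c := k) xd x3 (by
    rw [x4, G.g1, G'.h1, mul_one, one_mul, mul_assoc, mul_assoc σ'⁻¹, mul_assoc σ'⁻¹, hk,
      mul_smul_comm, nonsing_inv_mul_cancel_left _ _ d'.isUnit, mul_smul_comm]
    simp only [sub_mul, mul_sub, pe_pe, one_mul, mul_one, sub_self, sub_zero])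
  refine ⟨X o o, _, _, s1, a1, a2, by simp [G.g1], by simp [G'.g1], fun w hw h0 L hL => ?_⟩
  have cm : mu o * R = R * mu o := by
    simp only [mu, sub_mul, mul_sub, smul_mul_assoc, mul_smul_comm, hR, one_mul, mul_one]
  rw [← s2, key w hw h0 L hL, add_comm R, ex_sum cm]
  simp only [mul_assoc]
  rw [ex_semi x1]

variable {C : Type} [TopologicalSpace C] {A : At C} {l : Cy A ℂ}

theorem hz_off {z : Dat C A.N n} {i : Fin A.N} (hx : z.x ∈ (A.e i).source) {r : ℝ}
    {G : ℂ → Mn n} (h : Hz (A.e i z.x) r (fill A z i) (fun _ => R) G) {w : ℂ}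
    (hw : w ∈ ball (A.e i z.x) r) (ho : w ∈ off A z.x i) :
    deriv G w + z.a i w * G w = (w - A.e i z.x)⁻¹ • (G w * R) := by
  rw [← h.eq w hw, P275MB.fill_off ho.2, smul_mul_assoc, ← smul_add,
    inv_smul_smul₀ (sub_ne_zero.2 ((P275MB.off_iff hx).1 ho).2)]
  rfl

theorem core [T2Space C] (h : HTy τ o j κ) {z z' : Dat C A.N n} {u : Fm A (Mn n)}
    (g : Good A l z) (g' : Good A l z') (hl : z.lam = 1) (hq : z.R ∈ τ.q)
    (hi : (τ.η z.R j).im ≠ 0) {t : Fin A.N → ℂ} (k : Hk A o z z' z.x t u) :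
    ∃ a c : ℂ, a ≠ 0 ∧ c ≠ 0 ∧ ∃ i, (z.x ∈ (A.e i).source ∧ ‖A.e i z.x‖ < 1) ∧ ∃ G G' : ℂ → Mn n,
      AnalyticAt ℂ G (A.e i z.x) ∧ AnalyticAt ℂ G' (A.e i z.x) ∧
      G (A.e i z.x) = z.σ i ∧ G' (A.e i z.x) = z'.σ i ∧ ∀ᶠ w in 𝓝[≠] (A.e i z.x),
        deriv G w + z.a i w * G w = (w - A.e i z.x)⁻¹ • (G w * z.R) ∧
        deriv G' w + z'.a i w * G' w = (w - A.e i z.x)⁻¹ • (G' w * z'.R) ∧
        ∀ L : ℂ, Complex.exp L = w - A.e i z.x → u i w * G w * P275RL.ex z.R (-L) =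
          G' w * P275RL.ex z'.R (-L) * (a • pe o + c • (1 - pe o)) := by
  obtain ⟨i, hx, hu⟩ := A.cov z.x
  have hx' : z'.x ∈ (A.e i).source := k.x ▸ hx
  obtain ⟨U, c, c0, hU, hc⟩ := k.fr i hx
  obtain ⟨r, r0, sb⟩ := Metric.isOpen_iff.1 isOpen_ball _ (At.map_src hx)
  have eR : z'.R = z.R + mu o := by rw [k.R, hl, one_smul]
  have ho : ∀ w ∈ ball (A.e i z.x) r, w ≠ A.e i z.x → w ∈ off A z.x i := fun w a b =>
    (P275MB.off_iff hx).2 ⟨sb a, b⟩
  obtain ⟨a, G, G', a0, a1, a2, a3, a4, a5⟩ := loc2 (u := u i) r0 h hq hi k.spl (g.fr i hx)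
    (g'.fr i hx') ((P275MB.Good.fill g hx).mono sb) ((P275MB.Good.fill g' hx').mono sb)
    (P275MB.fill_at hx) (by rw [← k.x, P275MB.fill_at hx', eR]) (fun w a b => by
      have o := ho w a b
      refine ⟨by rw [k.det i w o]; exact one_ne_zero,
        (k.hol i).differentiableAt ((P275MB.off_open _ _).mem_nhds o), ?_⟩
      have e := k.con i w o o.2
      rw [hl, one_smul] at e
      rw [P275MB.fill_off o.2, P275MB.fill_off (k.x ▸ o.2), k.x, smul_mul_assoc, ← smul_add, e,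
        mul_smul_comm]) (by simpa [P275HE.ex] using hU) hc
  refine ⟨a, c, a0, c0, i, ⟨hx, hu⟩, G, G', a1.hol.analyticAt (ball_mem_nhds _ r0),
    a2.hol.analyticAt (ball_mem_nhds _ r0), a3, a4, ?_⟩
  filter_upwards [mem_nhdsWithin_of_mem_nhds (ball_mem_nhds _ r0), self_mem_nhdsWithin] with w b e
  refine ⟨hz_off hx a1 b (ho w b e), ?_, eR ▸ a5 w b e⟩
  rw [← k.x] at a2 b ⊢
  exact eR ▸ hz_off hx' a2 b (k.x ▸ ho w (k.x ▸ b) e)

/-- **OFF** -/
theorem off_ok [T2Space C] (A : At C) (l : Cy A ℂ) (h : HTy τ o j κ) : OFF A l τ o j := by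
  intro r h1 h2 z z' u g g' hl hq hi k
  obtain ⟨a, c, a0, c0, i, hx, G, G', b1, b2, b3, b4, b5⟩ := core h g g' hl hq hi k
  refine ⟨a, c, a0, c0, hl, k.lam.trans hl, k.x, r, h1, h2, u, k.hol, fun i w hw =>
    ⟨k.det i w hw, 0, ?_⟩, k.law, i, ⟨hx.1.1, hx.2⟩, G, G', fun _ => 1, P281Z.Hm.an_ent b1,
    P281Z.Hm.an_ent b2,
    b3, b4, b5.mono fun w e => ⟨e.1, e.2.1, fun L hL => (e.2.2 L hL).trans (one_smul _ _).symm⟩⟩
  have e := k.con i w hw hw.2
  rw [hl, one_smul] at e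
  rw [zero_smul, add_zero]
  exact e

end Vale.Agent.P275OF
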